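import Mathlib

/-!
The numbers attached to the fixed loci with at most one point. They depend only on the
intersection form `B`, the canonical class `K`, the class `lam` and the divisors `D₁`, `D₂`.
-/

namespace Vale.Agent.P297Z.Eval

variable {Λ : Type} [AddCommGroup Λ] (B : Λ →+ Λ →+ ℤ) (K : Λ)

/-- The Euler characteristic given by the formula of Riemann and Roch. -/
def chiN (D : Λ) : ℤ := 1 + (B D D - B K D) / 2

/-- The coefficient of `h₁ ^ a₁ * h₂ ^ a₂` in `c₀ + c₁ h₁ + c₂ h₂`, for `a₁ + a₂ ≤ 1`. -/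
def top (a₁ a₂ c₀ c₁ c₂ : ℤ) : ℤ := if a₁ = 1 then c₁ else if a₂ = 1 then c₂ else c₀

/-- The sign of a fixed locus. -/
def sgn (lam D₁ D₂ : Λ) : ℤ :=
  ((chiN B K (lam - D₁ + D₂) + chiN B K (D₂ + lam)).negOnePow : ℤˣ)

/-- The number `M` from the integers `a₁ a₂ e A₁ A₂` and, if there is a point, `p u v q`. -/
def Mi (n₁ n₂ : ℕ) (a₁ a₂ e A₁ A₂ p u v q : ℤ) : ℤ :=
  if n₁ = 1 then
    top a₁ a₂ (-p + u + 14) (-p * (e + 12 - A₁) + (u + 14) * (e + 11 - A₁) + u + v + q - 28)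
      (-p * (A₂ - e - 12) + (u + 14) * (A₂ - e - 11))
  else if n₂ = 1 then
    top a₁ a₂ (-p - u + 14) (-p * (e + 12 - A₁) + (14 - u) * (e + 11 - A₁))
      (-p * (A₂ - e - 12) + (14 - u) * (A₂ - e - 11) + u + v - q + 28)
  else top a₁ a₂ 1 (e + 14 - A₁) (A₂ - e - 14)

/-- The four classes at the point. -/
def xc (lam D₁ D₂ : Λ) (n₁ : ℕ) : Fin 4 → Λ :=
  if n₁ = 1 then ![D₁ - K, D₁ - lam - K, -(lam - D₁ + D₂) - K, lam - D₁ + D₂]
  else ![D₂ - K, D₂ + lam - K, -(lam - D₁ + D₂), lam - D₁ + D₂ - K]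

/-- The coefficient of the product of the fourteen numbers `α · D₁`. -/
def Mf (lam D₁ D₂ : Λ) (n₁ n₂ : ℕ) : ℤ :=
  let x := xc K lam D₁ D₂ n₁
  sgn B K lam D₁ D₂ * Mi n₁ n₂ (chiN B K D₁ - 1) (chiN B K D₂ - 1)
    (chiN B K (lam - D₁ + D₂) + chiN B K (-(lam - D₁ + D₂))) (chiN B K (D₁ - lam))
    (chiN B K (D₂ + lam)) (B (x 0) (x 1)) (B (x 0) (x 2 - x 3)) (B (x 1) (x 2 - x 3))
    (-B (x 2) (x 2) + B (x 2) (x 3) - B (x 3) (x 3))

/-- The coefficient of the diagonal. -/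
def Nf (lam D₁ D₂ : Λ) (n₁ n₂ : ℕ) : ℤ :=
  sgn B K lam D₁ D₂ *
    if n₁ = 1 then top (chiN B K D₁ - 1) (chiN B K D₂ - 1) 0 (-1) 0
    else if n₂ = 1 then top (chiN B K D₁ - 1) (chiN B K D₂ - 1) 0 0 1 else 0

end Vale.Agent.P297Z.Eval
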